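import Mathlib

/-!
# P052, task GRAM: a Gram-type matrix built from a strongly regular graph

A matrix built from the adjacency function of a strongly regular graph with parameters
416, 100, 36, 20 and two eigenvectors for the eigenvalue `20` is symmetric, satisfies
`M * M = 96 • M` and has trace `96 * 63`.
-/

namespace Vale.Agent.H53

open Finset

theorem gram_matrix_facts (a : Fin 416 → Fin 416 → ℝ) (g1 g2 : Fin 416 → ℝ)
    (ha_symm : ∀ u v, a u v = a v u) (ha_diag : ∀ u, a u u = 0)
    (hdeg : ∀ u, ∑ w, a u w = 100)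
    (hsrg : ∀ u v, ∑ w, a u w * a w v = (if u = v then 80 else 0) + 16 * a u v + 20)
    (he1 : ∀ v, ∑ w, a v w * g1 w = 20 * g1 v) (he2 : ∀ v, ∑ w, a v w * g2 w = 20 * g2 v)
    (hs1 : ∑ w, g1 w = 0) (hs2 : ∑ w, g2 w = 0)
    (h11 : ∑ w, g1 w * g1 w = 64) (h22 : ∑ w, g2 w * g2 w = 64) (h12 : ∑ w, g1 w * g2 w = 32)
    (M : Matrix (Fin 416) (Fin 416) ℝ)
    (hM : ∀ u v, M u v = (if u = v then 16 else 0) + 4 * a u v - 1
      - 2 * (g1 u * g1 v + g2 u * g2 v) + (g1 u * g2 v + g2 u * g1 v)) :
    M.transpose = M ∧ M * M = (96 : ℝ) • M ∧ M.trace = 96 * ((63 : ℕ) : ℝ) := by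
  have h21 : ∑ w, g2 w * g1 w = 32 := by
    rw [← h12]
    exact Finset.sum_congr rfl (fun w _ => mul_comm _ _)
  have hdeg' : ∀ v, ∑ w, a w v = 100 := by
    intro v
    rw [← hdeg v]
    exact Finset.sum_congr rfl (fun w _ => ha_symm w v)
  have he1' : ∀ v, ∑ w, g1 w * a w v = 20 * g1 v := by
    intro v
    rw [← he1 v]
    exact Finset.sum_congr rfl (fun w _ => by rw [ha_symm w v, mul_comm])
  have he2' : ∀ v, ∑ w, g2 w * a w v = 20 * g2 v := by
    intro v
    rw [← he2 v]
    exact Finset.sum_congr rfl (fun w _ => by rw [ha_symm w v, mul_comm])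
  have hcard : ∑ _w : Fin 416, (1 : ℝ) = 416 := by simp
  have hd : ∀ (v : Fin 416) (f : Fin 416 → ℝ), ∑ w, (if w = v then f w else 0) = f v := by
    intro v f
    simp
  have hd' : ∀ (u : Fin 416) (f : Fin 416 → ℝ), ∑ w, (if u = w then f w else 0) = f u := by
    intro u f
    simp
  -- column sums of `M`
  have hcol0 : ∀ v, ∑ w, M w v = 0 := by
    intro v
    have e : ∀ w, M w v = (if w = v then (16 : ℝ) else 0) + 4 * a w v - 1
        - (2 * g1 v - g2 v) * g1 w - (2 * g2 v - g1 v) * g2 w := by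
      intro w
      rw [hM w v]
      ring
    rw [Finset.sum_congr rfl (fun w _ => e w)]
    simp only [Finset.sum_add_distrib, Finset.sum_sub_distrib, ← Finset.mul_sum]
    rw [hd v (fun _ => (16 : ℝ)), hdeg' v, hcard, hs1, hs2]
    ring
  have hcol1 : ∀ v, ∑ w, g1 w * M w v = 0 := by
    intro v
    have e : ∀ w, g1 w * M w v = (if w = v then 16 * g1 w else 0) + 4 * (g1 w * a w v) - g1 w
        - (2 * g1 v - g2 v) * (g1 w * g1 w) - (2 * g2 v - g1 v) * (g1 w * g2 w) := by
      intro w
      rw [hM w v]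
      split_ifs <;> ring
    rw [Finset.sum_congr rfl (fun w _ => e w)]
    simp only [Finset.sum_add_distrib, Finset.sum_sub_distrib, ← Finset.mul_sum]
    rw [hd v (fun w => 16 * g1 w), he1' v, hs1, h11, h12]
    ring
  have hcol2 : ∀ v, ∑ w, g2 w * M w v = 0 := by
    intro v
    have e : ∀ w, g2 w * M w v = (if w = v then 16 * g2 w else 0) + 4 * (g2 w * a w v) - g2 w
        - (2 * g1 v - g2 v) * (g2 w * g1 w) - (2 * g2 v - g1 v) * (g2 w * g2 w) := by
      intro w
      rw [hM w v]
      split_ifs <;> ring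
    rw [Finset.sum_congr rfl (fun w _ => e w)]
    simp only [Finset.sum_add_distrib, Finset.sum_sub_distrib, ← Finset.mul_sum]
    rw [hd v (fun w => 16 * g2 w), he2' v, hs2, h21, h22]
    ring
  have hcolA : ∀ u v, ∑ w, a u w * M w v = 20 * M u v := by
    intro u v
    have e : ∀ w, a u w * M w v = (if w = v then 16 * a u w else 0) + 4 * (a u w * a w v) - a u w
        - (2 * g1 v - g2 v) * (a u w * g1 w) - (2 * g2 v - g1 v) * (a u w * g2 w) := by
      intro w
      rw [hM w v]
      split_ifs <;> ring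
    rw [Finset.sum_congr rfl (fun w _ => e w)]
    simp only [Finset.sum_add_distrib, Finset.sum_sub_distrib, ← Finset.mul_sum]
    rw [hd v (fun w => 16 * a u w), hsrg u v, hdeg u, he1 u, he2 u, hM u v]
    split_ifs <;> ring
  refine ⟨?_, ?_, ?_⟩
  · ext u v
    rw [Matrix.transpose_apply, hM, hM, ha_symm v u]
    have e : (if v = u then (16 : ℝ) else 0) = if u = v then 16 else 0 := by
      simp only [eq_comm]
    rw [e]
    ring
  · ext u v
    rw [Matrix.mul_apply, Matrix.smul_apply, smul_eq_mul]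
    have e : ∀ w, M u w * M w v = (if u = w then 16 * M w v else 0) + 4 * (a u w * M w v) - M w v
        - (2 * g1 u - g2 u) * (g1 w * M w v) - (2 * g2 u - g1 u) * (g2 w * M w v) := by
      intro w
      rw [hM u w]
      split_ifs <;> ring
    rw [Finset.sum_congr rfl (fun w _ => e w)]
    simp only [Finset.sum_add_distrib, Finset.sum_sub_distrib, ← Finset.mul_sum]
    rw [hd' u (fun w => 16 * M w v), hcolA u v, hcol0 v, hcol1 v, hcol2 v]
    ring
  · rw [Matrix.trace]
    have e : ∀ u, Matrix.diag M u = 15 - 2 * (g1 u * g1 u) - 2 * (g2 u * g2 u)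
        + 2 * (g1 u * g2 u) := by
      intro u
      rw [Matrix.diag_apply, hM u u, ha_diag u, if_pos rfl]
      ring
    rw [Finset.sum_congr rfl (fun u _ => e u)]
    simp only [Finset.sum_add_distrib, Finset.sum_sub_distrib, ← Finset.mul_sum]
    rw [h11, h22, h12]
    simp
    norm_num

end Vale.Agent.H53
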